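import Crest.Agent.MM.DensDefs
import Crest.Agent.MM.Push

/-! # DENS, auxiliary file (helper6): `exists_bump_aux`, `exists_radii_aux`. -/

set_option autoImplicit false
open MeasureTheory Metric Set
open scoped ENNReal ContDiff RealInnerProductSpace
open Crest.AnalysisR.OT

namespace Crest.Agent.MM

/-- a normalised smooth bump: `η ≥ 0` smooth, support `= ball a r`, `∫ η² = 1/9`. -/
theorem exists_bump_aux {d : ℕ} (a : E d) {r : ℝ} (hr : 0 < r) :
    ∃ η : E d → ℝ, ContDiff ℝ ∞ η ∧ (∀ x, 0 ≤ η x) ∧ HasCompactSupport η ∧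
      Function.support η = ball a r ∧ tsupport η = closedBall a r ∧
      measOfDensity (fun x => η x ^ 2) univ = 1 / 9 := by
  let b : ContDiffBump a := ⟨r / 2, r, half_pos hr, half_lt_self hr⟩
  have hbs : ContDiff ℝ ∞ (b : E d → ℝ) := b.contDiff
  have hbc : HasCompactSupport (b : E d → ℝ) := b.hasCompactSupport
  have hsq_cont : Continuous (fun x => (b x) ^ 2) := (b.continuous).pow 2
  have hsq_cpt : HasCompactSupport (fun x => (b x) ^ 2) := by
    have : (fun x => (b x) ^ 2) = fun x => b x * b x := by funext x; ring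
    rw [this]
    exact hbc.mul_left
  have hsq_int : Integrable (fun x => (b x) ^ 2) := hsq_cont.integrable_of_hasCompactSupport hsq_cpt
  set I : ℝ := ∫ x, (b x) ^ 2 with hI
  have hIpos : 0 < I := by
    refine hsq_cont.integral_pos_of_hasCompactSupport_nonneg_nonzero hsq_cpt
      (fun x => by positivity) (x := a) ?_
    have : b a = 1 := b.one_of_mem_closedBall (mem_closedBall_self b.rIn_pos.le)
    simp [this]
  set κ : ℝ := Real.sqrt (1 / (9 * I)) with hκ
  have hκpos : 0 < κ := Real.sqrt_pos.2 (by positivity)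
  have hκsq : κ ^ 2 = 1 / (9 * I) := Real.sq_sqrt (by positivity)
  refine ⟨fun x => κ * b x, contDiff_const.mul hbs, fun x => mul_nonneg hκpos.le b.nonneg,
    hbc.mul_left, ?_, ?_, ?_⟩
  · have h1 : Function.support (fun x => κ * b x) = Function.support (b : E d → ℝ) := by
      ext x
      simp [hκpos.ne']
    rw [h1, b.support_eq]
  · have h1 : Function.support (fun x => κ * b x) = Function.support (b : E d → ℝ) := by
      ext x
      simp [hκpos.ne']
    have h2 : tsupport (fun x => κ * b x) = tsupport (b : E d → ℝ) := by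
      unfold tsupport
      rw [h1]
    rw [h2, b.tsupport_eq]
  · unfold measOfDensity
    rw [withDensity_apply _ MeasurableSet.univ, Measure.restrict_univ]
    have hfun : (fun x => (κ * b x) ^ 2) = fun x => κ ^ 2 * (b x) ^ 2 := by
      funext x; ring
    rw [hfun, ← ofReal_integral_eq_lintegral_ofReal (hsq_int.const_mul _)
      (Filter.Eventually.of_forall (fun x => by positivity)), integral_const_mul, ← hI, hκsq]
    have : 1 / (9 * I) * I = 1 / 9 := by field_simp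
    rw [this]
    rw [ENNReal.ofReal_div_of_pos (by norm_num)]
    simp

/-- open image of a smaller ball -/
theorem isOpen_image_ball_aux {d : ℕ} {f : E d → E d} {a : E d} {ε e : ℝ} (he : e ≤ ε)
    (hf : ContDiffOn ℝ ∞ f (ball a ε))
    (hK : ∃ K : ℝ, ∀ x ∈ ball a ε, ∀ y ∈ ball a ε, ‖x - y‖ ≤ K * ‖f x - f y‖) :
    IsOpen (f '' ball a e) := by
  obtain ⟨K, hK⟩ := hK
  have hsub : ball a e ⊆ ball a ε := ball_subset_ball he
  exact (diffeo isOpen_ball (hf.mono hsub)
    (fun x hx y hy => hK x (hsub hx) y (hsub hy))).1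

/-- a small closed ball is mapped into an open set containing the image of the centre -/
theorem exists_radius_aux {d : ℕ} {f : E d → E d} {a : E d} {ε : ℝ} (hε : 0 < ε)
    (hf : ContDiffOn ℝ ∞ f (ball a ε)) {O : Set (E d)} (hO : IsOpen O) (ha : f a ∈ O) :
    ∃ e₀ : ℝ, 0 < e₀ ∧ ∀ e : ℝ, e ≤ e₀ → f '' closedBall a e ⊆ O := by
  have hc : ContinuousAt f a :=
    (hf.continuousOn).continuousAt (isOpen_ball.mem_nhds (mem_ball_self hε))
  have h1 : f ⁻¹' O ∈ nhds a := hc (hO.mem_nhds ha)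
  obtain ⟨r, hr, hsub⟩ := Metric.mem_nhds_iff.1 h1
  refine ⟨r / 2, half_pos hr, ?_⟩
  rintro e he _ ⟨x, hx, rfl⟩
  refine hsub ?_
  have : dist x a ≤ e := hx
  rw [mem_ball]
  linarith

/-- choice of the nested radii. -/
theorem exists_radii_aux {d : ℕ} {s : ℝ} (Y : Sys d s) :
    ∃ e : Fin 3 → ℝ, (∀ i, 0 < e i) ∧ (∀ i, e i < Y.ε) ∧
      Y.β 0 '' closedBall (Y.a 0) (e 0) ⊆ Y.β' 2 '' ball (Y.a 2) (e 2) ∧
      Y.β' 0 '' closedBall (Y.a 0) (e 0) ⊆ Y.β 1 '' ball (Y.a 1) (e 1) ∧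
      Y.β' 1 '' closedBall (Y.a 1) (e 1) ⊆ Y.β 2 '' ball (Y.a 2) (e 2) := by
  have hε := Y.ε_pos
  set e2 : ℝ := Y.ε / 2 with he2
  have he2pos : 0 < e2 := half_pos hε
  have he2lt : e2 < Y.ε := half_lt_self hε
  have hO2 : IsOpen (Y.β 2 '' ball (Y.a 2) e2) :=
    isOpen_image_ball_aux he2lt.le (Y.β_smooth 2) (Y.β_anti 2)
  have hO2' : IsOpen (Y.β' 2 '' ball (Y.a 2) e2) :=
    isOpen_image_ball_aux he2lt.le (Y.β'_smooth 2) (Y.β'_anti 2)
  have hc0 : Y.c 0 ∈ Y.β 2 '' ball (Y.a 2) e2 :=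
    ⟨Y.a 2, mem_ball_self he2pos, Y.β_center 2⟩
  have hc1 : Y.c 1 ∈ Y.β' 2 '' ball (Y.a 2) e2 :=
    ⟨Y.a 2, mem_ball_self he2pos, Y.β'_center 2⟩
  obtain ⟨r1, hr1, h1⟩ := exists_radius_aux hε (Y.β'_smooth 1) hO2
    (by rw [Y.β'_center 1]; exact hc0)
  set e1 : ℝ := min r1 (Y.ε / 2) with he1
  have he1pos : 0 < e1 := lt_min hr1 (half_pos hε)
  have he1lt : e1 < Y.ε := lt_of_le_of_lt (min_le_right _ _) (half_lt_self hε)
  have hO1 : IsOpen (Y.β 1 '' ball (Y.a 1) e1) :=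
    isOpen_image_ball_aux he1lt.le (Y.β_smooth 1) (Y.β_anti 1)
  have hc2 : Y.c 2 ∈ Y.β 1 '' ball (Y.a 1) e1 :=
    ⟨Y.a 1, mem_ball_self he1pos, Y.β_center 1⟩
  obtain ⟨r0, hr0, h0⟩ := exists_radius_aux hε (Y.β_smooth 0) hO2'
    (by rw [Y.β_center 0]; exact hc1)
  obtain ⟨r0', hr0', h0'⟩ := exists_radius_aux hε (Y.β'_smooth 0) hO1
    (by rw [Y.β'_center 0]; exact hc2)
  set e0 : ℝ := min (min r0 r0') (Y.ε / 2) with he0
  have he0pos : 0 < e0 := lt_min (lt_min hr0 hr0') (half_pos hε)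
  have he0lt : e0 < Y.ε := lt_of_le_of_lt (min_le_right _ _) (half_lt_self hε)
  refine ⟨![e0, e1, e2], ?_, ?_, ?_, ?_, ?_⟩
  · intro i
    fin_cases i
    · exact he0pos
    · exact he1pos
    · exact he2pos
  · intro i
    fin_cases i
    · exact he0lt
    · exact he1lt
    · exact he2lt
  · exact h0 e0 ((min_le_left _ _).trans (min_le_left _ _))
  · exact h0' e0 ((min_le_left _ _).trans (min_le_right _ _))
  · exact h1 e1 (min_le_left _ _)

end Crest.Agent.MM
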