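import Mathlib
import Crest.Prelude.Def_MultiMarginal

/-!
# Generic Monge approximation of three-marginal plans (construction independent)

`monge_approx`: an atomless finite measure `μ` on a separable metric space, a coupling `π`
of `(μ, μ, μ)` and a cost which is uniformly upper semicontinuous along a set carrying `π`:
then Monge pairs `(T₂, T₃)` have cost at most `∫ c dπ + ε`.

The only input about atomless measures is the transport hypothesis (`htrE`, `htrN`).
-/

set_option autoImplicit false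
open MeasureTheory Set
open scoped ENNReal
open Crest.AnalysisR.OT

namespace Crest.Agent.MM.GenApprox6

section glue

variable {X Y ι : Type*} [MeasurableSpace X] [MeasurableSpace Y] [Countable ι]
  [MeasurableSpace ι] [MeasurableSingletonClass ι]

theorem measurable_glue (ℓ : X → ι) (hℓ : Measurable ℓ) (F : ι → X → Y)
    (hF : ∀ i, Measurable (F i)) : Measurable (fun x => F (ℓ x) x) := by
  have h : Measurable (fun p : X × ι => F p.2 p.1) :=
    measurable_from_prod_countable_left (fun i => hF i)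
  exact h.comp (measurable_id.prodMk hℓ)

theorem sum_restrict_label (μ : Measure X) (ℓ : X → ι) (hℓ : Measurable ℓ) :
    Measure.sum (fun i => μ.restrict (ℓ ⁻¹' {i})) = μ := by
  have hd : Pairwise (Function.onFun Disjoint (fun i => ℓ ⁻¹' {i})) := by
    intro i j hij
    refine Set.disjoint_left.2 ?_
    intro x hx hx'
    exact hij (hx.symm.trans hx')
  have hm : ∀ i, MeasurableSet (ℓ ⁻¹' {i}) := fun i => hℓ (measurableSet_singleton i)
  have hU : (⋃ i, ℓ ⁻¹' {i}) = univ := by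
    ext x; simp
  rw [← Measure.restrict_iUnion hd hm, hU, Measure.restrict_univ]

theorem map_glue (μ : Measure X) (ℓ : X → ι) (hℓ : Measurable ℓ) (F : ι → X → Y)
    (hF : ∀ i, Measurable (F i)) :
    μ.map (fun x => F (ℓ x) x) = Measure.sum (fun i => (μ.restrict (ℓ ⁻¹' {i})).map (F i)) := by
  have hG := measurable_glue ℓ hℓ F hF
  conv_lhs => rw [← sum_restrict_label μ ℓ hℓ]
  rw [Measure.map_sum hG.aemeasurable]
  congr 1
  funext i
  refine Measure.map_congr ?_
  refine (ae_restrict_iff' (hℓ (measurableSet_singleton i))).2 (Filter.Eventually.of_forall ?_)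
  intro x hx
  have : ℓ x = i := hx
  simp [this]

theorem ae_glue (μ : Measure X) (ℓ : X → ι) (hℓ : Measurable ℓ) (P : ι → X → Prop)
    (h : ∀ i, ∀ᵐ x ∂(μ.restrict (ℓ ⁻¹' {i})), P i x) : ∀ᵐ x ∂μ, P (ℓ x) x := by
  have h1 : ∀ᵐ x ∂μ, ∀ i, x ∈ ℓ ⁻¹' {i} → P i x := by
    rw [ae_all_iff]
    intro i
    exact (ae_restrict_iff' (hℓ (measurableSet_singleton i))).1 (h i)
  filter_upwards [h1] with x hx
  exact hx (ℓ x) rfl

end glue

section cells

variable {E : Type*} [PseudoMetricSpace E] [SecondCountableTopology E] [MeasurableSpace E]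
  [BorelSpace E]

theorem exists_cell_label (δ : ℝ) (hδ : 0 < δ) :
    ∃ κ : E → ℕ, Measurable κ ∧ ∀ x y, κ x = κ y → dist x y < δ := by
  classical
  rcases isEmpty_or_nonempty E with hE | hE
  · exact ⟨fun _ => 0, measurable_const, fun x => (hE.false x).elim⟩
  let u := TopologicalSpace.denseSeq E
  have hex : ∀ x : E, ∃ n, x ∈ Metric.ball (u n) (δ / 2) := by
    intro x
    obtain ⟨n, hn⟩ := (TopologicalSpace.denseRange_denseSeq E).exists_dist_lt x (half_pos hδ)
    exact ⟨n, hn⟩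
  refine ⟨fun x => Nat.find (hex x), ?_, ?_⟩
  · refine measurable_find _ ?_
    intro n
    exact Metric.isOpen_ball.measurableSet
  · intro x y hxy
    have h1 := Nat.find_spec (hex x)
    have h2 := Nat.find_spec (hex y)
    simp only at hxy
    rw [← hxy] at h2
    have h3 : dist x y ≤ dist x (u (Nat.find (hex x))) + dist y (u (Nat.find (hex x))) :=
      dist_triangle_right _ _ _
    have h1' : dist x (u (Nat.find (hex x))) < δ / 2 := h1
    have h2' : dist y (u (Nat.find (hex x))) < δ / 2 := h2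
    linarith

end cells

section main

variable {E : Type*} [MeasurableSpace E]

/-- Labelling: refine a cell label `κ` to a label with prescribed law `lam`. -/
theorem exists_label (μ : Measure E)
    (htrN : ∀ (A : Set E) (ν : Measure (ℕ × ℕ × ℕ)), MeasurableSet A → μ A = ν univ →
      ∃ Φ : E → ℕ × ℕ × ℕ, Measurable Φ ∧ (μ.restrict A).map Φ = ν)
    (κ : E → ℕ) (hκ : Measurable κ) (lam : Measure (ℕ × ℕ × ℕ)) (pr : ℕ × ℕ × ℕ → ℕ)
    (h : μ.map κ = lam.map pr) :
    ∃ L : E → ℕ × ℕ × ℕ, Measurable L ∧ μ.map L = lam ∧ ∀ᵐ x ∂μ, pr (L x) = κ x := by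
  have hpr : Measurable pr := Measurable.of_discrete
  have hmass : ∀ k : ℕ, μ (κ ⁻¹' {k}) = (lam.restrict (pr ⁻¹' {k})) univ := by
    intro k
    rw [Measure.restrict_apply MeasurableSet.univ, univ_inter,
      ← Measure.map_apply hκ (measurableSet_singleton k),
      ← Measure.map_apply hpr (measurableSet_singleton k), h]
  choose Φ hΦm hΦ using fun k =>
    htrN (κ ⁻¹' {k}) (lam.restrict (pr ⁻¹' {k})) (hκ (measurableSet_singleton k)) (hmass k)
  refine ⟨fun x => Φ (κ x) x, measurable_glue κ hκ Φ hΦm, ?_, ?_⟩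
  · rw [map_glue μ κ hκ Φ hΦm]
    simp_rw [hΦ]
    exact sum_restrict_label lam pr hpr
  · refine ae_glue μ κ hκ (fun k x => pr (Φ k x) = k) ?_
    intro k
    refine ae_of_ae_map (p := fun t => pr t = k) (hΦm k).aemeasurable ?_
    rw [hΦ k]
    exact ae_restrict_mem (hpr (measurableSet_singleton k))

/-- Transport matching two labels of the same law. -/
theorem exists_transport (μ : Measure E)
    (htrE : ∀ A B : Set E, MeasurableSet A → MeasurableSet B → μ A = μ B →
      ∃ T : E → E, Measurable T ∧ (μ.restrict A).map T = μ.restrict B)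
    (L₁ L₂ : E → ℕ × ℕ × ℕ) (h₁ : Measurable L₁) (h₂ : Measurable L₂)
    (h : μ.map L₁ = μ.map L₂) :
    ∃ T : E → E, Measurable T ∧ μ.map T = μ ∧ ∀ᵐ x ∂μ, L₂ (T x) = L₁ x := by
  have hmass : ∀ t, μ (L₁ ⁻¹' {t}) = μ (L₂ ⁻¹' {t}) := by
    intro t
    rw [← Measure.map_apply h₁ (measurableSet_singleton t),
      ← Measure.map_apply h₂ (measurableSet_singleton t), h]
  choose T hTm hT using fun t =>
    htrE (L₁ ⁻¹' {t}) (L₂ ⁻¹' {t}) (h₁ (measurableSet_singleton t))
      (h₂ (measurableSet_singleton t)) (hmass t)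
  refine ⟨fun x => T (L₁ x) x, measurable_glue L₁ h₁ T hTm, ?_, ?_⟩
  · rw [map_glue μ L₁ h₁ T hTm]
    simp_rw [hT]
    exact sum_restrict_label μ L₂ h₂
  · refine ae_glue μ L₁ h₁ (fun t x => L₂ (T t x) = t) ?_
    intro t
    refine ae_of_ae_map (p := fun y => L₂ y = t) (hTm t).aemeasurable ?_
    rw [hT t]
    exact ae_restrict_mem (h₂ (measurableSet_singleton t))

end main

section main2

variable {E : Type*} [PseudoMetricSpace E] [SecondCountableTopology E] [MeasurableSpace E]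
  [BorelSpace E]

theorem monge_approx_le (μ : Measure E) [IsFiniteMeasure μ]
    (htrE : ∀ A B : Set E, MeasurableSet A → MeasurableSet B → μ A = μ B →
      ∃ T : E → E, Measurable T ∧ (μ.restrict A).map T = μ.restrict B)
    (htrN : ∀ (A : Set E) (ν : Measure (ℕ × ℕ × ℕ)), MeasurableSet A → μ A = ν univ →
      ∃ Φ : E → ℕ × ℕ × ℕ, Measurable Φ ∧ (μ.restrict A).map Φ = ν)
    (π : Measure (E × E × E)) (hπ : IsCoupling₃ μ π)
    (c : E × E × E → ℝ≥0∞) (S : Set (E × E × E)) (hS : ∀ᵐ p ∂π, p ∈ S)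
    (hc : ∀ ε : ℝ≥0∞, 0 < ε → ∃ δ : ℝ, 0 < δ ∧ ∀ p ∈ S, ∀ q, dist p q < δ → c q ≤ c p + ε)
    (ε : ℝ≥0∞) (hε : 0 < ε) :
    ∃ T₂ T₃ : E → E, Measurable T₂ ∧ Measurable T₃ ∧ μ.map T₂ = μ ∧ μ.map T₃ = μ ∧
      ∫⁻ x, c (x, T₂ x, T₃ x) ∂μ ≤ ∫⁻ p, c p ∂π + ε := by
  obtain ⟨hπ1, hπ2, hπ3⟩ := hπ
  -- the small parameter
  have hM : μ univ + 1 ≠ ⊤ := by
    exact ENNReal.add_ne_top.2 ⟨measure_ne_top μ univ, ENNReal.one_ne_top⟩
  have hM0 : μ univ + 1 ≠ 0 := by simp
  set ε' : ℝ≥0∞ := ε / (μ univ + 1) with hε'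
  have hε'pos : 0 < ε' := ENNReal.div_pos hε.ne' hM
  have hε'le : ε' * π univ ≤ ε := by
    have h1 : π univ = μ univ := by
      rw [← hπ1, Measure.map_apply measurable_fst MeasurableSet.univ, preimage_univ]
    rw [h1]
    calc ε' * μ univ ≤ ε' * (μ univ + 1) := by gcongr; exact le_self_add
      _ = ε := ENNReal.div_mul_cancel hM0 hM
  obtain ⟨δ, hδ, hcδ⟩ := hc ε' hε'pos
  obtain ⟨κ, hκ, hκδ⟩ := exists_cell_label (E := E) δ hδ
  -- the label of a triple
  let K : E × E × E → ℕ × ℕ × ℕ := fun p => (κ p.1, κ p.2.1, κ p.2.2)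
  have hK : Measurable K :=
    (hκ.comp measurable_fst).prodMk
      ((hκ.comp (measurable_fst.comp measurable_snd)).prodMk
        (hκ.comp (measurable_snd.comp measurable_snd)))
  set lam : Measure (ℕ × ℕ × ℕ) := π.map K with hlam
  have hd : ∀ pr : ℕ × ℕ × ℕ → ℕ, Measurable pr := fun pr => Measurable.of_discrete
  have e1 : μ.map κ = lam.map (fun t => t.1) := by
    rw [hlam, Measure.map_map (hd _) hK]
    conv_lhs => rw [← hπ1]
    rw [Measure.map_map hκ measurable_fst]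
    rfl
  have e2 : μ.map κ = lam.map (fun t => t.2.1) := by
    rw [hlam, Measure.map_map (hd _) hK]
    conv_lhs => rw [← hπ2]
    rw [Measure.map_map hκ
      (show Measurable (fun p : E × E × E => p.2.1) from measurable_fst.comp measurable_snd)]
    rfl
  have e3 : μ.map κ = lam.map (fun t => t.2.2) := by
    rw [hlam, Measure.map_map (hd _) hK]
    conv_lhs => rw [← hπ3]
    rw [Measure.map_map hκ
      (show Measurable (fun p : E × E × E => p.2.2) from measurable_snd.comp measurable_snd)]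
    rfl
  obtain ⟨L₁, hL₁, hL₁map, hL₁ae⟩ := exists_label μ htrN κ hκ lam _ e1
  obtain ⟨L₂, hL₂, hL₂map, hL₂ae⟩ := exists_label μ htrN κ hκ lam _ e2
  obtain ⟨L₃, hL₃, hL₃map, hL₃ae⟩ := exists_label μ htrN κ hκ lam _ e3
  obtain ⟨T₂, hT₂, hT₂map, hT₂ae⟩ :=
    exists_transport μ htrE L₁ L₂ hL₁ hL₂ (hL₁map.trans hL₂map.symm)
  obtain ⟨T₃, hT₃, hT₃map, hT₃ae⟩ :=
    exists_transport μ htrE L₁ L₃ hL₁ hL₃ (hL₁map.trans hL₃map.symm)
  refine ⟨T₂, T₃, hT₂, hT₃, hT₂map, hT₃map, ?_⟩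
  -- pull the a.e. label identities back through the transports
  have hL₂ae' : ∀ᵐ x ∂μ, (L₂ (T₂ x)).2.1 = κ (T₂ x) := by
    refine ae_of_ae_map (p := fun y => (L₂ y).2.1 = κ y) hT₂.aemeasurable ?_
    rw [hT₂map]; exact hL₂ae
  have hL₃ae' : ∀ᵐ x ∂μ, (L₃ (T₃ x)).2.2 = κ (T₃ x) := by
    refine ae_of_ae_map (p := fun y => (L₃ y).2.2 = κ y) hT₃.aemeasurable ?_
    rw [hT₃map]; exact hL₃ae
  have hKG : ∀ᵐ x ∂μ, K (x, T₂ x, T₃ x) = L₁ x := by
    filter_upwards [hL₁ae, hT₂ae, hT₃ae, hL₂ae', hL₃ae'] with x h1 h2 h3 h4 h5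
    rw [h2] at h4
    rw [h3] at h5
    simp only [K]
    rw [← h1, ← h4, ← h5]
  -- the cell-wise supremum of the cost
  let b : ℕ × ℕ × ℕ → ℝ≥0∞ := fun t => ⨆ q : {q : E × E × E // K q = t}, c q.1
  have hb : Measurable b := Measurable.of_discrete
  calc ∫⁻ x, c (x, T₂ x, T₃ x) ∂μ ≤ ∫⁻ x, b (L₁ x) ∂μ := by
        refine lintegral_mono_ae ?_
        filter_upwards [hKG] with x hx
        exact le_iSup (fun q : {q : E × E × E // K q = L₁ x} => c q.1) ⟨(x, T₂ x, T₃ x), hx⟩
    _ = ∫⁻ t, b t ∂lam := by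
        rw [← hL₁map, lintegral_map hb hL₁]
    _ = ∫⁻ p, b (K p) ∂π := by
        rw [hlam, lintegral_map hb hK]
    _ ≤ ∫⁻ p, (c p + ε') ∂π := by
        refine lintegral_mono_ae ?_
        filter_upwards [hS] with p hp
        refine iSup_le ?_
        rintro ⟨q, hq⟩
        refine hcδ p hp q ?_
        have hq1 : κ q.1 = κ p.1 := congrArg (fun t => t.1) hq
        have hq2 : κ q.2.1 = κ p.2.1 := congrArg (fun t => t.2.1) hq
        have hq3 : κ q.2.2 = κ p.2.2 := congrArg (fun t => t.2.2) hq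
        rw [Prod.dist_eq, Prod.dist_eq]
        exact max_lt (hκδ _ _ hq1.symm) (max_lt (hκδ _ _ hq2.symm) (hκδ _ _ hq3.symm))
    _ = ∫⁻ p, c p ∂π + ε' * π univ := by
        rw [lintegral_add_right _ measurable_const, lintegral_const]
    _ ≤ ∫⁻ p, c p ∂π + ε := by gcongr

end main2

end Crest.Agent.MM.GenApprox6
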