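import Mathlib

/-!
# Generic transport maps from atomless measures (helper file for S0175)

* `exists_measurable_map_eq_volume` : an atomless probability measure on a standard Borel space
  can be pushed to the uniform measure on `[0,1]` by a measurable map.
* `exists_measurable_map_eq_of_nullSingleton` : an atomless finite measure on a standard Borel
  space can be pushed to any finite measure of the same mass on a nonempty standard Borel space.
-/

set_option autoImplicit false

open MeasureTheory ProbabilityTheory Set Filter unitInterval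
open scoped ENNReal Topology

namespace Crest.Agent.MM

/-- The cdf of an atomless probability measure on `ℝ` is continuous. -/
lemma continuous_cdf_of_nullSingleton (μ : Measure ℝ) [IsProbabilityMeasure μ]
    [NullSingletonClass μ] : Continuous (cdf μ) := by
  rw [continuous_iff_continuousAt]
  intro x
  have h1 : (cdf μ).measure {x} = 0 := by rw [measure_cdf]; exact measure_singleton x
  rw [StieltjesFunction.measure_singleton, ENNReal.ofReal_eq_zero] at h1
  have h2 : Function.leftLim (cdf μ) x ≤ cdf μ x := (monotone_cdf μ).leftLim_le le_rfl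
  have h3 : Function.leftLim (cdf μ) x = cdf μ x := le_antisymm h2 (by linarith)
  rw [(monotone_cdf μ).continuousAt_iff_leftLim_eq_rightLim, h3, (cdf μ).rightLim_eq]

/-- Key computation: for an atomless probability measure on `ℝ` and `t ∈ [0,1)`,
`μ {x | cdf μ x ≤ t} = t`. -/
lemma measure_cdf_le (μ : Measure ℝ) [IsProbabilityMeasure μ] [NullSingletonClass μ]
    (t : ℝ) (ht0 : 0 ≤ t) (ht1 : t < 1) : μ {x | cdf μ x ≤ t} = ENNReal.ofReal t := by
  have hcont := continuous_cdf_of_nullSingleton μ
  set A : Set ℝ := {x | cdf μ x ≤ t} with hA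
  by_cases hne : A.Nonempty
  · have hclosed : IsClosed A := isClosed_le hcont continuous_const
    have hbdd : BddAbove A := by
      have := (tendsto_cdf_atTop μ).eventually (lt_mem_nhds ht1)
      obtain ⟨y, hy⟩ := this.exists
      refine ⟨y, fun x hx => ?_⟩
      by_contra hxy
      push Not at hxy
      have := monotone_cdf μ hxy.le
      have hx' : cdf μ x ≤ t := hx
      linarith
    have hmem : sSup A ∈ A := hclosed.csSup_mem hne hbdd
    have hAeq : A = Iic (sSup A) := by
      ext x
      constructor
      · intro hx; exact le_csSup hbdd hx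
      · intro hx
        have h1 : cdf μ x ≤ cdf μ (sSup A) := monotone_cdf μ hx
        have h2 : cdf μ (sSup A) ≤ t := hmem
        exact h1.trans h2
    have hge : t ≤ cdf μ (sSup A) := by
      have h1 : Tendsto (cdf μ) (𝓝[>] (sSup A)) (𝓝 (cdf μ (sSup A))) :=
        (hcont.tendsto _).mono_left nhdsWithin_le_nhds
      refine ge_of_tendsto h1 ?_
      refine eventually_nhdsWithin_of_forall fun y hy => ?_
      by_contra hlt
      push Not at hlt
      have : y ∈ A := hlt.le
      have := le_csSup hbdd this
      exact absurd hy (not_lt.mpr this)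
    have heq : cdf μ (sSup A) = t := le_antisymm hmem hge
    rw [hAeq, ← ofReal_cdf, heq]
  · rw [not_nonempty_iff_eq_empty] at hne
    have ht : t = 0 := by
      by_contra hne0
      have hpos : 0 < t := lt_of_le_of_ne ht0 (Ne.symm hne0)
      have := (tendsto_cdf_atBot μ).eventually (gt_mem_nhds hpos)
      obtain ⟨y, hy⟩ := this.exists
      have : y ∈ A := hy.le
      rw [hne] at this
      exact this
    rw [hne, ht]; simp

/-- An atomless probability measure on `ℝ` is pushed to the uniform measure on `[0,1]` by its
cdf. -/
lemma exists_measurable_map_eq_volume_real (μ : Measure ℝ) [IsProbabilityMeasure μ]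
    [NullSingletonClass μ] : ∃ S : ℝ → I, Measurable S ∧ μ.map S = volume := by
  let S : ℝ → I := fun x => ⟨cdf μ x, cdf_nonneg μ x, cdf_le_one μ x⟩
  have hS : Measurable S := (monotone_cdf μ).measurable.subtype_mk
  have : IsProbabilityMeasure (μ.map S) := Measure.isProbabilityMeasure_map hS.aemeasurable
  refine ⟨S, hS, Measure.ext_of_Iic _ _ fun t => ?_⟩
  rw [Measure.map_apply hS measurableSet_Iic, unitInterval.volume_Iic]
  have hset : S ⁻¹' Iic t = {x | cdf μ x ≤ t} := by
    ext x; simp [S, ← Subtype.coe_le_coe]
  rw [hset]
  by_cases ht : (t : ℝ) < 1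
  · exact measure_cdf_le μ t t.2.1 ht
  · have ht1 : (t : ℝ) = 1 := le_antisymm t.2.2 (not_lt.mp ht)
    have : {x | cdf μ x ≤ t} = univ := by
      ext x; simp [ht1, cdf_le_one]
    rw [this, ht1]; simp

/-- An atomless probability measure on a standard Borel space is pushed to the uniform measure
on `[0,1]` by some measurable map. -/
theorem exists_measurable_map_eq_volume {X : Type*} [MeasurableSpace X] [StandardBorelSpace X]
    (μ : Measure X) [IsProbabilityMeasure μ] [NullSingletonClass μ] :
    ∃ S : X → I, Measurable S ∧ μ.map S = volume := by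
  have he := measurableEmbedding_embeddingReal X
  have : IsProbabilityMeasure (μ.map (embeddingReal X)) :=
    Measure.isProbabilityMeasure_map he.measurable.aemeasurable
  have : NullSingletonClass (μ.map (embeddingReal X)) := by
    refine ⟨fun x => ?_⟩
    rw [Measure.map_apply he.measurable (measurableSet_singleton x)]
    refine Set.Subsingleton.measure_zero ?_ μ
    intro a ha b hb
    exact he.injective (ha.trans hb.symm)
  obtain ⟨S, hS, hSμ⟩ := exists_measurable_map_eq_volume_real (μ.map (embeddingReal X))
  refine ⟨S ∘ embeddingReal X, hS.comp he.measurable, ?_⟩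
  rw [← Measure.map_map hS he.measurable, hSμ]

/-- **Generic transport.**  An atomless finite measure on a standard Borel space can be pushed
to any measure of the same total mass on a nonempty standard Borel space. -/
theorem exists_measurable_map_eq_of_nullSingleton {X Y : Type*} [MeasurableSpace X]
    [StandardBorelSpace X] [MeasurableSpace Y] [StandardBorelSpace Y] [Nonempty Y]
    (μ : Measure X) [IsFiniteMeasure μ] [NullSingletonClass μ] (ν : Measure Y)
    (h : μ univ = ν univ) : ∃ T : X → Y, Measurable T ∧ μ.map T = ν := by
  by_cases h0 : μ univ = 0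
  · have hμ : μ = 0 := Measure.measure_univ_eq_zero.mp h0
    have hν : ν = 0 := Measure.measure_univ_eq_zero.mp (h ▸ h0)
    obtain ⟨y⟩ := ‹Nonempty Y›
    exact ⟨fun _ => y, measurable_const, by rw [hμ, hν]; simp⟩
  · have hfin : μ univ ≠ ⊤ := measure_ne_top μ univ
    set m := μ univ with hm
    have hP1 : IsProbabilityMeasure (m⁻¹ • μ) :=
      ⟨by rw [Measure.smul_apply, smul_eq_mul, ← hm, ENNReal.inv_mul_cancel h0 hfin]⟩
    have hP2 : IsProbabilityMeasure (m⁻¹ • ν) :=
      ⟨by rw [Measure.smul_apply, smul_eq_mul, ← h, ENNReal.inv_mul_cancel h0 hfin]⟩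
    have hN : NullSingletonClass (m⁻¹ • μ) :=
      ⟨fun x => by rw [Measure.smul_apply, measure_singleton, smul_zero]⟩
    obtain ⟨S, hS, hSμ⟩ := exists_measurable_map_eq_volume (m⁻¹ • μ)
    obtain ⟨f, hf, hfν⟩ := Measure.exists_measurable_map_eq (m⁻¹ • ν)
    refine ⟨f ∘ S, hf.comp hS, ?_⟩
    have h1 : (m⁻¹ • μ).map (f ∘ S) = m⁻¹ • ν := by
      rw [← Measure.map_map hf hS, hSμ, hfν]
    rw [Measure.map_smul] at h1
    have h2 := congrArg (fun κ => m • κ) h1
    simp only [smul_smul, ENNReal.mul_inv_cancel h0 hfin, one_smul] at h2
    exact h2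

end Crest.Agent.MM
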