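import Crest.Agent.MM.LocSep
import Crest.Agent.MM.Phi
import Crest.Agent.MM.Diffeo

set_option autoImplicit false
open MeasureTheory Metric Set
open scoped ENNReal ContDiff RealInnerProductSpace

namespace Crest.Agent.MM
namespace LocCtx

variable {d : ℕ} (C : LocCtx d)

theorem exists_crit_aux (hO : IsOpen C.Om) (hP : ContDiffOn ℝ ∞ C.Phi C.Om)
    (hA : ∀ X ∈ C.Om, ∀ X' ∈ C.Om, ‖X - X'‖ ≤ (2 * (1 + C.L)) * ‖C.Phi X - C.Phi X'‖) :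
    ∃ ε : ℝ, 0 < ε ∧ ε ≤ C.δ₀ ∧ ∃ β β' : E d → E d,
    ContDiffOn ℝ ∞ β (ball C.a₀ ε) ∧ ContDiffOn ℝ ∞ β' (ball C.a₀ ε) ∧ β C.a₀ = C.c ∧ β' C.a₀ = C.c' ∧
    ∀ x ∈ ball C.a₀ ε, β x ∈ ball C.c C.δ₀ ∧ β' x ∈ ball C.c' C.δ₀ ∧
      C.gy x (β x) (β' x) = 0 ∧ C.gz x (β x) (β' x) = 0 := by
  obtain ⟨hopen, -, g, hg, hinv⟩ := diffeo hO hP hA
  have hP0 : ((C.a₀, C.c, C.c') : E d × E d × E d) ∈ C.Om := by
    refine ⟨mem_ball_self C.hδ₀, mem_ball_self C.hδ₀, mem_ball_self C.hδ₀⟩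
  have hPhi0 : C.Phi (C.a₀, C.c, C.c') = (C.a₀, 0, 0) := by
    simp only [Phi, gy_center, gz_center]
  have hmem : ((C.a₀, 0, 0) : E d × E d × E d) ∈ C.Phi '' C.Om := ⟨_, hP0, hPhi0⟩
  obtain ⟨ε₁, hε₁, hball⟩ := Metric.isOpen_iff.1 hopen _ hmem
  have hin : ∀ x ∈ ball C.a₀ (min ε₁ C.δ₀), ((x, 0, 0) : E d × E d × E d) ∈ C.Phi '' C.Om := by
    intro x hx
    apply hball
    rw [mem_ball, Prod.dist_eq, Prod.dist_eq]
    simp only [dist_self, max_self]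
    rw [mem_ball] at hx
    exact max_lt (lt_of_lt_of_le hx (min_le_left _ _)) hε₁
  have hsm : ContDiffOn ℝ ∞ (fun x : E d => g (x, 0, 0)) (ball C.a₀ (min ε₁ C.δ₀)) := by
    refine hg.comp (t := C.Phi '' C.Om) (g := g) (f := fun x : E d => ((x, 0, 0) : E d × E d × E d)) ?_ hin
    exact (contDiff_id.prodMk contDiff_const).contDiffOn
  refine ⟨min ε₁ C.δ₀, lt_min hε₁ C.hδ₀, min_le_right _ _, fun x => (g (x, 0, 0)).2.1,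
    fun x => (g (x, 0, 0)).2.2, hsm.snd.fst, hsm.snd.snd, ?_, ?_, ?_⟩
  · show (g (C.a₀, 0, 0)).2.1 = C.c
    rw [← hPhi0, hinv _ hP0]
  · show (g (C.a₀, 0, 0)).2.2 = C.c'
    rw [← hPhi0, hinv _ hP0]
  · intro x hx
    obtain ⟨X, hX, hXe⟩ := hin x hx
    have hgX : g (x, 0, 0) = X := by rw [← hXe, hinv _ hX]
    obtain ⟨x₁, y₁, z₁⟩ := X
    simp only [Phi, Prod.mk.injEq] at hXe
    obtain ⟨rfl, h2, h3⟩ := hXe
    obtain ⟨-, hy, hz⟩ := hX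
    simp only [hgX]
    exact ⟨hy, hz, h2, h3⟩

end LocCtx
end Crest.Agent.MM
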