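import Crest.Agent.MM.RhoBasic

/-! # MU, second half (helper26): mu_bounded, m_ae_mem, mu_restrict_A, mu_restrict_B, ac1, ac2. -/

set_option autoImplicit false
open MeasureTheory Metric Set
open scoped ENNReal ContDiff RealInnerProductSpace
open Crest.AnalysisR.OT

namespace Crest.Agent.MM

section general
variable {d : ℕ}

theorem measOfDensity_restrict_eq {A : Set (E d)} (hA : MeasurableSet A) {f h : E d → ℝ}
    (h1 : ∀ x ∈ A, f x = h x) (h2 : ∀ x, x ∉ A → h x = 0) :
    (measOfDensity f).restrict A = measOfDensity h := by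
  unfold measOfDensity
  rw [restrict_withDensity hA, ← withDensity_indicator hA]
  congr 1
  funext x
  by_cases hx : x ∈ A
  · rw [indicator_of_mem hx, h1 x hx]
  · rw [indicator_of_notMem hx, h2 x hx, ENNReal.ofReal_zero]

theorem measOfDensity_add {f h : E d → ℝ} (hf : Measurable f) (hf0 : ∀ x, 0 ≤ f x)
    (hh0 : ∀ x, 0 ≤ h x) :
    measOfDensity (fun x => f x + h x) = measOfDensity f + measOfDensity h := by
  unfold measOfDensity
  rw [← withDensity_add_left (hf.ennreal_ofReal)]
  congr 1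
  funext x
  exact ENNReal.ofReal_add (hf0 x) (hh0 x)

theorem measOfDensity_ae_of_support {f : E d → ℝ} (hf : Measurable f) {A : Set (E d)}
    (h : Function.support f ⊆ A) : ∀ᵐ x ∂(measOfDensity f), x ∈ A := by
  unfold measOfDensity
  rw [ae_withDensity_iff hf.ennreal_ofReal]
  refine Filter.Eventually.of_forall fun x hx => h ?_
  intro h0
  exact hx (by rw [h0, ENNReal.ofReal_zero])

theorem measOfDensity_ac {f h : E d → ℝ} (hf : Measurable f) (hh : Measurable h)
    (hh0 : ∀ x, 0 ≤ h x) (hs : Function.support f ⊆ Function.support h) :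
    measOfDensity f ≪ measOfDensity h := by
  unfold measOfDensity
  refine Measure.AbsolutelyContinuous.mk fun A _ hA0 => ?_
  rw [withDensity_apply_eq_zero' hh.ennreal_ofReal.aemeasurable] at hA0
  rw [withDensity_apply_eq_zero' hf.ennreal_ofReal.aemeasurable]
  refine measure_mono_null ?_ hA0
  rintro x ⟨hx, hxA⟩
  refine ⟨?_, hxA⟩
  have hfx : f x ≠ 0 := by
    intro h0
    exact hx (by rw [h0, ENNReal.ofReal_zero])
  have hhx : h x ≠ 0 := hs hfx
  have : 0 < h x := lt_of_le_of_ne (hh0 x) (Ne.symm hhx)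
  show ENNReal.ofReal (h x) ≠ 0
  exact (ENNReal.ofReal_pos.2 this).ne'

end general

namespace Dens

variable {d : ℕ} {s : ℝ} {Y : Sys d s} (D : Dens Y)

theorem η_sq_meas (i : Fin 3) : Measurable (fun x => D.η i x ^ 2) :=
  ((D.η_smooth i).continuous.measurable).pow_const 2

theorem θ_sq_meas (i : Fin 3) : Measurable (fun x => D.θ i x ^ 2) :=
  ((D.θ_smooth i).continuous.measurable).pow_const 2

theorem θ'_sq_meas (i : Fin 3) : Measurable (fun x => D.θ' i x ^ 2) :=
  ((D.θ'_smooth i).continuous.measurable).pow_const 2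

theorem mu_bounded_aux : ∃ R : ℝ, D.mu (closedBall 0 R)ᶜ = 0 := by
  obtain ⟨R, hR⟩ := (D.rho_cpt.isCompact.isBounded).subset_closedBall 0
  refine ⟨R, ?_⟩
  have h : ∀ᵐ x ∂D.mu, x ∈ closedBall (0 : E d) R :=
    measOfDensity_ae_of_support D.rho_smooth.continuous.measurable
      ((subset_tsupport _).trans hR)
  exact mem_ae_iff.1 h

theorem m_ae_mem_aux (i : Fin 3) : ∀ᵐ x ∂(D.m i), x ∈ ball (Y.a i) Y.ε := by
  refine measOfDensity_ae_of_support (D.η_sq_meas i) ?_
  intro x hx
  apply D.η_supp i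
  apply subset_tsupport
  intro h0
  exact hx (by show D.η i x ^ 2 = 0; rw [h0]; ring)

theorem mu_restrict_A_aux (i : Fin 3) : D.mu.restrict (ball (Y.a i) Y.ε) = D.m i := by
  refine measOfDensity_restrict_eq measurableSet_ball (fun x hx => D.rho_on_A i hx) ?_
  intro x hx
  have : D.η i x = 0 := by
    by_contra h0
    exact hx (D.η_supp i (subset_tsupport _ h0))
  rw [this]; ring

theorem mu_restrict_B_aux (j : Fin 3) : D.mu.restrict (closedBall (Y.c j) Y.δ₀) =
    (D.m (j + 2)).map (Y.β (j + 2)) + (D.m (j + 1)).map (Y.β' (j + 1)) := by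
  have e1 : j + 2 + 1 = j := by fin_cases j <;> rfl
  have e2 : j + 1 + 2 = j := by fin_cases j <;> rfl
  have p1 : (D.m (j + 2)).map (Y.β (j + 2)) = measOfDensity (fun x => D.θ (j + 2) x ^ 2) :=
    D.push (j + 2)
  have p2 : (D.m (j + 1)).map (Y.β' (j + 1)) = measOfDensity (fun x => D.θ' (j + 1) x ^ 2) :=
    D.push' (j + 1)
  rw [p1, p2, ← measOfDensity_add (D.θ_sq_meas _) (fun x => sq_nonneg _) (fun x => sq_nonneg _)]
  refine measOfDensity_restrict_eq measurableSet_closedBall (fun x hx => D.rho_on_B j hx) ?_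
  intro x hx
  have h1 : D.θ (j + 2) x = 0 := by
    by_contra h0
    have := D.θ_supp (j + 2) h0
    rw [e1] at this
    exact hx this
  have h2 : D.θ' (j + 1) x = 0 := by
    by_contra h0
    have := D.θ'_supp (j + 1) h0
    rw [e2] at this
    exact hx this
  rw [h1, h2]; ring

theorem support_sq_subset {f h : E d → ℝ} (hs : tsupport f ⊆ Function.support h) :
    Function.support (fun x => f x ^ 2) ⊆ Function.support (fun x => h x ^ 2) := by
  intro x hx
  have hf : f x ≠ 0 := by
    intro h0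
    exact hx (by show f x ^ 2 = 0; rw [h0]; ring)
  have hh : h x ≠ 0 := hs (subset_tsupport _ hf)
  exact pow_ne_zero 2 hh

/-- in `B₁`: the type-0 mass is dominated by the type-2 mass -/
theorem ac1_aux : (D.m 0).map (Y.β 0) ≪ (D.m 2).map (Y.β' 2) := by
  have p1 : (D.m 0).map (Y.β 0) = measOfDensity (fun x => D.θ 0 x ^ 2) := D.push 0
  have p2 : (D.m 2).map (Y.β' 2) = measOfDensity (fun x => D.θ' 2 x ^ 2) := D.push' 2
  rw [p1, p2]
  exact measOfDensity_ac (D.θ_sq_meas _) (D.θ'_sq_meas _) (fun x => sq_nonneg _)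
    (support_sq_subset D.nest1)

/-- in `B₂`: the type-0 mass is dominated by the type-1 mass -/
theorem ac2_aux : (D.m 0).map (Y.β' 0) ≪ (D.m 1).map (Y.β 1) := by
  have p1 : (D.m 0).map (Y.β' 0) = measOfDensity (fun x => D.θ' 0 x ^ 2) := D.push' 0
  have p2 : (D.m 1).map (Y.β 1) = measOfDensity (fun x => D.θ 1 x ^ 2) := D.push 1
  rw [p1, p2]
  exact measOfDensity_ac (D.θ'_sq_meas _) (D.θ_sq_meas _) (fun x => sq_nonneg _)
    (support_sq_subset D.nest2)

end Dens
end Crest.Agent.MM
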